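import Vale.Agent.P011.E6I.Bas0
import Vale.Agent.P011.E6.Rel4
import Vale.Agent.P011.D4.IF.Asm

/-!
Block E6I: the normal closure of the automorphism group of the octonion algebra.
-/

open NumberField Matrix

namespace Vale.Agent.P011.E6I

open Vale.Agent.P011.MPQ Vale.Agent.P011.D4 Vale.Agent.P011.D4.Oct Vale.Agent.P011.E6
open Vale.Agent.P011.E6.Alb

section B

variable {k L : Type} [Field k] [NumberField k] [Field L] [NumberField L] [Algebra k L]
  {ρ : L ≃ₐ[k] L} {lam : kˣ} {a b c : kˣ}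

omit [NumberField k] in
theorem ph_rlin (f : AutC a b c) (x : AlbL L a b c) :
    Rl.rlin L (Rl.autR a b c f) (ph ρ lam x) = ph ρ lam (Rl.rlin L (Rl.autR a b c f) x) := by
  rw [Rl.rlin_apply, Rl.rlin_apply]
  simp only [ph, Rl.omap_extE, map_smul]
  rfl

variable (ρ lam a b c) in
/-- The automorphisms of the octonion algebra, as elements of the group. -/
def autI : AutC a b c →* GI ρ lam a b c where
  toFun f := ⟨Rl.rlin L (Rl.autR a b c f), ⟨(Rl.rlin_mem ρ 1 _).1, ph_rlin f⟩⟩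
  map_one' := Subtype.ext (Rl.alb_unique' fun x => by
    rw [Rl.rlin_aup]
    rfl)
  map_mul' f g := Subtype.ext (Rl.alb_unique' fun x => by
    rw [Rl.rlin_aup]
    change _ = Rl.rlin L (Rl.autR a b c f) (Rl.rlin L (Rl.autR a b c g) (aup L x))
    rw [Rl.rlin_aup, Rl.rlin_aup]
    rfl)

theorem autI_aup (f : AutC a b c) (x : Alb a b c) :
    (autI ρ lam a b c f).1 (aup L x) = aup L (Alb.omapA f.1 x) := Rl.rlin_aup _ _

theorem eq_autI {g : GI ρ lam a b c} {f : AutC a b c}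
    (h : ∀ x : Alb a b c, g.1 (aup L x) = aup L (Alb.omapA f.1 x)) : g = autI ρ lam a b c f :=
  Subtype.ext (Rl.alb_unique' fun x => by rw [h, autI_aup])

theorem autI_injective : Function.Injective (autI ρ lam a b c) := by
  intro f g h
  apply Subtype.ext
  apply LinearEquiv.ext
  intro x
  have h1 := congrArg (fun φ : GI ρ lam a b c => (φ.1 (aup L ⟨0, 0, 0, x, 0, 0⟩)).x1) h
  simp only [autI_aup] at h1
  exact oup_injective h1

theorem autI_mem (f : AutC a b c) : autI ρ lam a b c f ∈ res0 ρ lam a b c :=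
  Subgroup.subset_normalClosure ⟨f, autI_aup f⟩

theorem res0_le {N : Subgroup (GI ρ lam a b c)} (hN : N.Normal)
    (h : ∀ f, autI ρ lam a b c f ∈ N) : res0 ρ lam a b c ≤ N := by
  apply Subgroup.normalClosure_le_normal
  rintro g ⟨f, hf⟩
  rw [eq_autI hf]
  exact h f

theorem mem_res0 {g : GI ρ lam a b c} : g ∈ res0 ρ lam a b c ↔
    ∀ N : Subgroup (GI ρ lam a b c), N.Normal → (∀ f, autI ρ lam a b c f ∈ N) → g ∈ N :=
  ⟨fun h N h1 h2 => res0_le h1 h2 h, fun h => h _ Subgroup.normalClosure_normal autI_mem⟩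

theorem mem_Res' {φ : AlbL L a b c ≃ₗ[L] AlbL L a b c} (hφ : φ ∈ GI ρ lam a b c) :
    φ ∈ Res ρ lam a b c ↔ (⟨φ, hφ⟩ : GI ρ lam a b c) ∈ res0 ρ lam a b c := by
  rw [Res, Subgroup.mem_map]
  constructor
  · rintro ⟨x, hx, hxφ⟩
    have h1 : x = ⟨φ, hφ⟩ := Subtype.ext hxφ
    rwa [← h1]
  · intro h
    exact ⟨_, h, rfl⟩

theorem mem_Res {φ : AlbL L a b c ≃ₗ[L] AlbL L a b c} (hφ : φ ∈ GI ρ lam a b c) :
    φ ∈ Res ρ lam a b c ↔ ∀ N : Subgroup (GI ρ lam a b c), N.Normal →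
      (∀ f, autI ρ lam a b c f ∈ N) → ⟨φ, hφ⟩ ∈ N := by
  rw [mem_Res' hφ, mem_res0]

theorem Res_le : Res ρ lam a b c ≤ GI ρ lam a b c := by
  rintro φ ⟨x, -, rfl⟩
  exact x.2

/-- The automorphisms of the octonion algebra. -/
theorem aut_Res (_ : Hyp ρ lam a b c) (g : AutC a b c) {φ : AlbL L a b c ≃ₗ[L] AlbL L a b c}
    (hφ : ∀ x : Alb a b c, φ (aup L x) = aup L (Alb.omapA g.1 x)) : φ ∈ Res ρ lam a b c := by
  have h : φ = (autI ρ lam a b c g).1 := Rl.alb_unique' fun x => by rw [hφ, autI_aup]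
  rw [h]
  exact ⟨_, autI_mem g, rfl⟩

/-- The element `-1` of the group of norm one elements. -/
def negS (a b : kˣ) : SL1 a b :=
  ⟨-1, by
    change nrd ((-1 : (Qt a b)ˣ) : Qt a b) = 1
    rw [Units.val_neg, Units.val_one]
    simp [nrd]⟩

theorem long_negS_ne : long a b c (negS a b) ≠ 1 := by
  intro h
  have h1 : ((negS a b : (Qt a b)ˣ) : Qt a b) * 1 = 1 :=
    congrArg (fun f : AutC a b c => (f.1 (⟨0, 1⟩ : Oct a b c)).snd) h
  have h2 := congrArg QuaternionAlgebra.re h1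
  have h3 : (((negS a b : (Qt a b)ˣ) : Qt a b) * 1).re = -1 := by
    rw [mul_one]
    change (((-1 : (Qt a b)ˣ) : Qt a b)).re = -1
    rw [Units.val_neg, Units.val_one]
    rfl
  rw [h3] at h2
  have h4 : (-1 : k) = 1 := h2
  have : (2 : k) = 0 := by linear_combination -h4
  exact two_ne_zero this

theorem act_one_neg (x : AlbL L a b c) : Alb.act 1 (-1) x =
    ⟨x.d1, x.d2, x.d3, ⟨x.x1.fst, -x.x1.snd⟩, ⟨x.x2.fst, -x.x2.snd⟩,
      ⟨x.x3.fst, -x.x3.snd⟩⟩ := by
  unfold Alb.act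
  rw [inv_one, Units.val_one, Matrix.one_mul, conjTranspose_one, Matrix.mul_one, vecMul_one]
  simp only [neg_one_mul]
  rfl

theorem autI_negS (x : AlbL L a b c) :
    (autI ρ lam a b c (long a b c (negS a b))).1 x = Alb.act 1 (-1) x := by
  have h : (autI ρ lam a b c (long a b c (negS a b))).1 = H64.actL two_ne_zero 1 (-1) := by
    apply Rl.alb_unique'
    intro x
    rw [autI_aup, H64.actL_apply, Units.val_neg, Units.val_one, act_one_neg]
    have e : ∀ y : Oct a b c, oup L ((long a b c (negS a b)).1 y) =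
        ⟨(oup L y).fst, -(oup L y).snd⟩ := by
      intro y
      have e1 : (long a b c (negS a b)).1 y = ⟨y.fst, -y.snd⟩ := by
        apply Oct.ext
        · rfl
        · change (((-1 : (Qt a b)ˣ) : Qt a b)) * y.snd = -y.snd
          rw [Units.val_neg, Units.val_one, neg_one_mul]
      rw [e1]
      apply Oct.ext
      · rfl
      · exact D4.qup_neg y.snd
    simp only [aup, Alb.omapA, e]
  rw [h, H64.actL_apply, Units.val_neg, Units.val_one]


/-- An isomorphism that identifies the groups, as an isomorphism of groups. -/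
def conjI {a' b' c' : kˣ} {Ψ : AlbL L a' b' c' ≃ₗ[L] AlbL L a b c}
    (h : ∀ φ, φ ∈ GI ρ lam a' b' c' ↔ conjE Ψ φ ∈ GI ρ lam a b c) :
    GI ρ lam a' b' c' ≃* GI ρ lam a b c where
  toFun := fun x => ⟨conjE Ψ x.1, (h x.1).mp x.2⟩
  invFun := fun y => ⟨(conjE Ψ).symm y.1, (h _).mpr (by
    rw [MulEquiv.apply_symm_apply]; exact y.2)⟩
  left_inv := fun x => Subtype.ext ((conjE Ψ).symm_apply_apply x.1)
  right_inv := fun y => Subtype.ext ((conjE Ψ).apply_symm_apply y.1)
  map_mul' := fun x y => Subtype.ext (map_mul (conjE Ψ) x.1 y.1)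

theorem mem_res0_equiv {a' b' c' : kˣ} (e : GI ρ lam a' b' c' ≃* GI ρ lam a b c)
    (h1 : ∀ f, e (autI ρ lam a' b' c' f) ∈ res0 ρ lam a b c)
    (h2 : ∀ f, e.symm (autI ρ lam a b c f) ∈ res0 ρ lam a' b' c') {g : GI ρ lam a' b' c'} :
    g ∈ res0 ρ lam a' b' c' ↔ e g ∈ res0 ρ lam a b c := by
  have hn : ∀ a b c : kˣ, (res0 ρ lam a b c).Normal := fun a b c =>
    Subgroup.normalClosure_normal
  constructor
  · intro hg
    have h3 : res0 ρ lam a' b' c' ≤ (res0 ρ lam a b c).comap e.toMonoidHom :=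
      res0_le ((hn a b c).comap _) h1
    exact h3 hg
  · intro hg
    have h3 : res0 ρ lam a b c ≤ (res0 ρ lam a' b' c').comap e.symm.toMonoidHom :=
      res0_le ((hn a' b' c').comap _) h2
    have h4 : e.symm (e g) ∈ res0 ρ lam a' b' c' := h3 hg
    rwa [MulEquiv.symm_apply_apply] at h4

theorem conj_Res {a' b' c' : kˣ} {Ψ : AlbL L a' b' c' ≃ₗ[L] AlbL L a b c}
    (h : ∀ φ, φ ∈ GI ρ lam a' b' c' ↔ conjE Ψ φ ∈ GI ρ lam a b c)
    (h1 : ∀ f, conjI h (autI ρ lam a' b' c' f) ∈ res0 ρ lam a b c)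
    (h2 : ∀ f, (conjI h).symm (autI ρ lam a b c f) ∈ res0 ρ lam a' b' c')
    {φ : AlbL L a' b' c' ≃ₗ[L] AlbL L a' b' c'} :
    φ ∈ Res ρ lam a' b' c' ↔ conjE Ψ φ ∈ Res ρ lam a b c := by
  constructor
  · intro h3
    have h4 := Res_le h3
    rw [mem_Res' h4, mem_res0_equiv (conjI h) h1 h2] at h3
    rw [mem_Res' ((h φ).mp h4)]
    exact h3
  · intro h3
    have h4 := (h φ).mpr (Res_le h3)
    rw [mem_Res' ((h φ).mp h4)] at h3
    rw [mem_Res' h4, mem_res0_equiv (conjI h) h1 h2]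
    exact h3

/-- A normal subgroup that contains one automorphism of the octonion algebra different from the
identity contains all automorphisms of the octonion algebra. -/
theorem autI_mem_of_one (hdiv : Division a b c) {N : Subgroup (GI ρ lam a b c)} (hN : N.Normal)
    {f₀ : AutC a b c} (hf₀ : f₀ ≠ 1) (h : autI ρ lam a b c f₀ ∈ N) (f : AutC a b c) :
    autI ρ lam a b c f ∈ N := by
  have h1 : N.comap (autI ρ lam a b c) = ⊤ := by
    refine (IF.autC_simple hdiv _ (hN.comap _)).resolve_left fun h0 => ?_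
    apply hf₀
    have h2 : f₀ ∈ N.comap (autI ρ lam a b c) := h
    rw [h0] at h2
    exact Subgroup.mem_bot.mp h2
  have h2 : f ∈ N.comap (autI ρ lam a b c) := by
    rw [h1]
    exact Subgroup.mem_top f
  exact h2

/-- A normal subgroup that contains one automorphism of the octonion algebra different from the
identity contains the normal closure. -/
theorem res0_le_of_one (hdiv : Division a b c) {N : Subgroup (GI ρ lam a b c)} (hN : N.Normal)
    {f₀ : AutC a b c} (hf₀ : f₀ ≠ 1) (h : autI ρ lam a b c f₀ ∈ N) : res0 ρ lam a b c ≤ N :=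
  res0_le hN (autI_mem_of_one hdiv hN hf₀ h)

/-- A subgroup of finite index contains the normal closure. -/
theorem res0_le_of_index (hdiv : Division a b c) {N : Subgroup (GI ρ lam a b c)}
    (hN : N.index ≠ 0) : res0 ρ lam a b c ≤ N := by
  haveI : N.FiniteIndex := ⟨hN⟩
  have h1 : res0 ρ lam a b c ≤ N.normalCore := by
    apply res0_le N.normalCore_normal
    intro f
    have h2 : N.normalCore.comap (autI ρ lam a b c) = ⊤ := by
      apply g2 hdiv
      · exact N.normalCore_normal.comap _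
      · rw [Subgroup.index_comap]
        have h3 : N.normalCore.index ≠ 0 := Subgroup.FiniteIndex.index_ne_zero
        exact fun h0 => h3 (Nat.eq_zero_of_zero_dvd
          (h0 ▸ N.normalCore.relIndex_dvd_index_of_normal _))
    have h3 : f ∈ N.normalCore.comap (autI ρ lam a b c) := by
      rw [h2]
      exact Subgroup.mem_top f
    exact h3
  exact h1.trans N.normalCore_le

theorem sim_iff (H : Hyp ρ lam a b c) {m : (MQ L a b)ˣ} (hm : InD ρ lam (m : MQ L a b))
    {κ : Qt a b} (hκ : nrd (qup L κ) = nu (m : MQ L a b))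
    {Ψ : AlbL L a b c ≃ₗ[L] AlbL L a b c} (hΨ : ∀ x, Ψ x = Alb.act m (qup L κ) x)
    (φ : AlbL L a b c ≃ₗ[L] AlbL L a b c) :
    (φ ∈ GI ρ lam a b c ↔ Ψ * φ * Ψ⁻¹ ∈ GI ρ lam a b c) ∧
      (φ ∈ Res ρ lam a b c ↔ Ψ * φ * Ψ⁻¹ ∈ Res ρ lam a b c) := by
  have h : ∀ φ, φ ∈ GI ρ lam a b c ↔ conjE Ψ φ ∈ GI ρ lam a b c := fun φ => sim_GI H hm hκ hΨ φ
  have hc : ∀ x, Ψ ((autI ρ lam a b c (long a b c (negS a b))).1 x) =
      (autI ρ lam a b c (long a b c (negS a b))).1 (Ψ x) := by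
    intro x
    rw [autI_negS, autI_negS, hΨ, hΨ, act_act, act_act, mul_one, one_mul, mul_neg_one,
      neg_one_mul]
  have e1 : conjI h (autI ρ lam a b c (long a b c (negS a b))) =
      autI ρ lam a b c (long a b c (negS a b)) := by
    apply Subtype.ext
    apply LinearEquiv.ext
    intro x
    change Ψ ((autI ρ lam a b c (long a b c (negS a b))).1 (Ψ.symm x)) = _
    rw [hc, LinearEquiv.apply_symm_apply]
  have hn : (res0 ρ lam a b c).Normal := Subgroup.normalClosure_normal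
  refine ⟨h φ, conj_Res h (fun f => ?_) fun f => ?_⟩
  · have h2 := autI_mem_of_one H.hdiv (hn.comap (conjI h).toMonoidHom) long_negS_ne (by
      change conjI h (autI ρ lam a b c (long a b c (negS a b))) ∈ res0 ρ lam a b c
      rw [e1]
      exact autI_mem _) f
    exact h2
  · have h2 := autI_mem_of_one H.hdiv (hn.comap (conjI h).symm.toMonoidHom) long_negS_ne (by
      change (conjI h).symm (autI ρ lam a b c (long a b c (negS a b))) ∈ res0 ρ lam a b c
      rw [← e1, MulEquiv.symm_apply_apply]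
      exact autI_mem _) f
    exact h2

/-- The similitudes normalise the group and the normal closure. -/
theorem sim_conj (H : Hyp ρ lam a b c) {m : (MQ L a b)ˣ} (hm : InD ρ lam (m : MQ L a b))
    {κ : Qt a b} (hκ : nrd (qup L κ) = nu (m : MQ L a b))
    {Ψ : AlbL L a b c ≃ₗ[L] AlbL L a b c} (hΨ : ∀ x, Ψ x = Alb.act m (qup L κ) x)
    {φ : AlbL L a b c ≃ₗ[L] AlbL L a b c} :
    (φ ∈ GI ρ lam a b c → Ψ * φ * Ψ⁻¹ ∈ GI ρ lam a b c) ∧
      (φ ∈ Res ρ lam a b c → Ψ * φ * Ψ⁻¹ ∈ Res ρ lam a b c) :=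
  ⟨(sim_iff H hm hκ hΨ φ).1.mp, (sim_iff H hm hκ hΨ φ).2.mp⟩

/-- The change of coordinates carries automorphisms to automorphisms. -/
theorem trip_aut {a' b' c' : kˣ} {i j l : Oct a b c} (ht : Trip a' b' c' i j l)
    (h : ∀ φ, φ ∈ GI ρ lam a' b' c' ↔ conjE (tripA L ht) φ ∈ GI ρ lam a b c) :
    (∀ f, conjI h (autI ρ lam a' b' c' f) ∈ res0 ρ lam a b c) ∧
      ∀ f, (conjI h).symm (autI ρ lam a b c f) ∈ res0 ρ lam a' b' c' := by
  obtain ⟨Φ, hΦ, hΦm, -, -⟩ := exists_emb ht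
  have e0 : ∀ x : Alb a' b' c', tripA L ht (aup L x) = aup L (Alb.omapA Φ x) := by
    intro x
    rw [tripA_aup]
    simp only [Alb.omapA, hΦ]
  have e1 : ∀ x : Alb a b c, (tripA L ht).symm (aup L x) = aup L (Alb.omapA Φ.symm x) := by
    intro x
    rw [LinearEquiv.symm_apply_eq, e0]
    simp only [Alb.omapA, LinearEquiv.apply_symm_apply]
  have hs : ∀ x y, Φ.symm (x * y) = Φ.symm x * Φ.symm y := by
    intro x y
    apply Φ.injective
    rw [hΦm, LinearEquiv.apply_symm_apply, LinearEquiv.apply_symm_apply,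
      LinearEquiv.apply_symm_apply]
  constructor
  · intro f
    refine Subgroup.subset_normalClosure ⟨⟨(Φ.symm.trans f.1).trans Φ, fun x y => ?_⟩,
      fun x => ?_⟩
    · change Φ (f.1 (Φ.symm (x * y))) = Φ (f.1 (Φ.symm x)) * Φ (f.1 (Φ.symm y))
      rw [hs, f.2, hΦm]
    · change tripA L ht ((autI ρ lam a' b' c' f).1 ((tripA L ht).symm (aup L x))) = _
      rw [e1, autI_aup, e0]
      rfl
  · intro f
    refine Subgroup.subset_normalClosure ⟨⟨(Φ.trans f.1).trans Φ.symm, fun x y => ?_⟩,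
      fun x => ?_⟩
    · change Φ.symm (f.1 (Φ (x * y))) = Φ.symm (f.1 (Φ x)) * Φ.symm (f.1 (Φ y))
      rw [hΦm, f.2, hs]
    · change (tripA L ht).symm ((autI ρ lam a b c f).1 (tripA L ht (aup L x))) = _
      rw [e0, autI_aup, e1]
      rfl

/-- Change of the quaternion subalgebra. -/
theorem trip_Res {a' b' c' : kˣ} {i j l : Oct a b c} (ht : Trip a' b' c' i j l)
    {Ψ : AlbL L a' b' c' ≃ₗ[L] AlbL L a b c}
    (hΨ : ∀ x, Ψ x = Alb.omapA (emb (oup L i) (oup L j) (oup L l)) x)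
    {φ : AlbL L a' b' c' ≃ₗ[L] AlbL L a' b' c'} :
    (φ ∈ GI ρ lam a' b' c' ↔ (Ψ.symm.trans φ).trans Ψ ∈ GI ρ lam a b c) ∧
      (φ ∈ Res ρ lam a' b' c' ↔ (Ψ.symm.trans φ).trans Ψ ∈ Res ρ lam a b c) := by
  obtain rfl : Ψ = tripA L ht := by
    apply LinearEquiv.ext
    intro x
    rw [hΨ, tripA_apply]
  have h := fun φ => trip_GI (ρ := ρ) (lam := lam) ht hΨ φ
  exact ⟨h φ, conj_Res h (trip_aut ht h).1 (trip_aut ht h).2⟩

end B

end Vale.Agent.P011.E6I
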